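import Mathlib

namespace Vale.Agent.P113

open scoped ContDiff

/-! ## Machines -/

/-- A description of a deterministic one-tape Turing machine. States and symbols are numbered by
natural numbers, `0` being the start state and also the blank symbol. The first component is the
finite instruction table (state, symbol) to (new state, new symbol, move) with move
`some true` = right, `some false` = left, `none` = stay; the second component is the finite list
of halting states. -/
abbrev Machine := List ((ℕ × ℕ) × (ℕ × ℕ × Option Bool)) × List ℕ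

/-- One step of the machine on a configuration (state, two-sided tape with head): the instruction
`r` = (new state, new symbol, move) for the current state and scanned symbol is carried out. If no
instruction applies, nothing changes. -/
def step (M : Machine) (c : ℕ × Turing.Tape ℕ) : ℕ × Turing.Tape ℕ :=
  (M.1.lookup (c.1, c.2.head)).elim c fun r => (r.1, r.2.2.elim (c.2.write r.2.1) fun d =>
    (c.2.write r.2.1).move (if d then Turing.Dir.right else Turing.Dir.left))

/-- `M` halts on `w`: started in state `0` on the otherwise blank two-sided tape with `w` on it and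
the head at its first cell, it reaches a halting state after finitely many steps. -/
def HaltsOn (M : Machine) (w : List ℕ) : Prop :=
  ∃ n : ℕ, ((step M)^[n] (0, Turing.Tape.mk₁ w)).1 ∈ M.2

/-! ## Computable reals and programs -/

/-- The fraction `(p, q)` stands for the rational number `p / (q + 1)`. -/
abbrev Frac := ℤ × ℕ

/-- The rational number named by a fraction, as a real number. -/
noncomputable def fracVal (r : Frac) : ℝ := (r.1 : ℝ) / ((r.2 : ℝ) + 1)

/-- A real number that has a computable sequence of rational approximations of accuracy `2⁻ⁿ`. -/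
def IsComputableReal (ν : ℝ) : Prop :=
  ∃ g : ℕ → Frac, Computable g ∧ ∀ n, |ν - fracVal (g n)| ≤ (1 / 2) ^ n

/-! ## The flat torus and fields on it -/

/-- The universal cover of the torus. -/
abbrev E3 := Fin 3 → ℝ

/-- The flat torus `(ℝ/ℤ)³`. -/
abbrev T3 := Fin 3 → UnitAddCircle

/-- The covering map `ℝ³ → (ℝ/ℤ)³`. -/
def proj (x : E3) : T3 := fun i => (x i : UnitAddCircle)

/-- The `j`-th partial derivative of a function on `ℝ³`. -/
noncomputable def pd (j : Fin 3) (g : E3 → ℝ) (x : E3) : ℝ := fderiv ℝ g x (Pi.single j 1)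

/-- `g` is `n` times continuously differentiable. -/
def IsC (n : ℕ∞) (g : E3 → ℝ) : Prop := ContDiff ℝ n g

/-- `g` is a smooth function of time and space. -/
def IsSmooth (g : ℝ → E3 → ℝ) : Prop := ContDiff ℝ ∞ (fun z : ℝ × E3 => g z.1 z.2)

/-- `g` is (jointly) continuous on `[0,T] × ℝ³`. -/
def IsCont (T : ℝ) (g : ℝ → E3 → ℝ) : Prop :=
  ContinuousOn (fun z : ℝ × E3 => g z.1 z.2) (Set.Icc 0 T ×ˢ Set.univ)

/-- The mixed derivative `∂ₜ^(α₀) ∂₁^(α₁) ∂₂^(α₂) ∂₃^(α₃) g` at `(t, x)`. -/
noncomputable def mixed (α : ℕ × ℕ × ℕ × ℕ) (g : ℝ → E3 → ℝ) (t : ℝ) (x : E3) : ℝ :=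
  iteratedDeriv α.1 (fun s =>
    iteratedDeriv α.2.1 (fun y₁ =>
      iteratedDeriv α.2.2.1 (fun y₂ =>
        iteratedDeriv α.2.2.2 (fun y₃ => g s ![y₁, y₂, y₃]) (x 2)) (x 1)) (x 0)) t

/-- The program `c` returns, for every component `i`, every mixed derivative `α`, every rational
time `t ≥ 0`, every rational point `x` and every rational accuracy `ε > 0`, a fraction which
approximates that derivative of `f` at `(t, x)` to within `ε`. -/
def Computes (c : Nat.Partrec.Code) (f : ℝ → T3 → E3) : Prop :=
  ∀ (i : Fin 3) (α : ℕ × ℕ × ℕ × ℕ) (t : Frac) (x : Frac × Frac × Frac) (ε : Frac),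
    0 ≤ fracVal t → 0 < fracVal ε →
    ∃ r : Frac, Encodable.encode r ∈ c.eval (Encodable.encode (i, α, t, x, ε)) ∧
      |mixed α (fun s y => f s (proj y) i) (fracVal t)
        ![fracVal x.1, fracVal x.2.1, fracVal x.2.2] - fracVal r| ≤ fracVal ε

/-- A force compiler: an algorithm `compile` which on every pair (machine, input) halts and outputs
a program for the mixed derivatives of the smooth force `f (M, w)`, such that for some `T₀`
independent of `(M, w)` the restriction of `f (M, w)` to `t ≥ T₀` is periodic in time and depends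
on `M` only. -/
structure IsForceCompiler (compile : Machine × List ℕ → Nat.Partrec.Code)
    (f : Machine × List ℕ → ℝ → T3 → E3) : Prop where
  computable : Computable compile
  smooth : ∀ P i, IsSmooth (fun t x => f P t (proj x) i)
  computes : ∀ P, Computes (compile P) (f P)
  tail : ∃ T₀ : ℝ, 0 ≤ T₀ ∧ ∀ M : Machine,
    (∃ τ : ℝ, 0 < τ ∧ ∀ (w : List ℕ) (t : ℝ), T₀ ≤ t → ∀ x, f (M, w) (t + τ) x = f (M, w) t x) ∧
    ∀ (w w' : List ℕ) (t : ℝ), T₀ ≤ t → ∀ x, f (M, w) t x = f (M, w') t x

/-! ## The forced Navier-Stokes system from rest -/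

/-- `(u, p)` is a classical solution on `[0, T] × (ℝ/ℤ)³` of
`∂ₜu + (u·∇)u = -∇p + ν Δu + f`, `div u = 0`, `u(0,·) = 0`, with `p` of spatial mean zero:
`u`, `∂ₜu`, the spatial derivatives of `u` up to order two, `p` and `∇p` exist and are continuous
on `[0, T] × (ℝ/ℤ)³`, and the equations hold pointwise. -/
structure IsClassicalSolution (ν T : ℝ) (f u : ℝ → T3 → E3) (p : ℝ → T3 → ℝ) : Prop where
  u_C2 : ∀ t ∈ Set.Icc 0 T, ∀ i, IsC 2 (fun x => u t (proj x) i)
  p_C1 : ∀ t ∈ Set.Icc 0 T, IsC 1 (fun x => p t (proj x))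
  u_diff : ∀ t ∈ Set.Icc 0 T, ∀ x i, DifferentiableWithinAt ℝ (fun s => u s x i) (Set.Icc 0 T) t
  u_cont : ∀ i, IsCont T (fun t x => u t (proj x) i)
  ut_cont : ∀ i, IsCont T (fun t x => derivWithin (fun s => u s (proj x) i) (Set.Icc 0 T) t)
  Du_cont : ∀ i j, IsCont T (fun t => pd j (fun x => u t (proj x) i))
  D2u_cont : ∀ i j k, IsCont T (fun t => pd k (pd j (fun x => u t (proj x) i)))
  p_cont : IsCont T (fun t x => p t (proj x))
  Dp_cont : ∀ i, IsCont T (fun t => pd i (fun x => p t (proj x)))
  momentum : ∀ t ∈ Set.Icc 0 T, ∀ (x : E3) (i : Fin 3),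
    derivWithin (fun s => u s (proj x) i) (Set.Icc 0 T) t
        + ∑ j, u t (proj x) j * pd j (fun y => u t (proj y) i) x
      = - pd i (fun y => p t (proj y)) x
        + ν * ∑ j, pd j (pd j (fun y => u t (proj y) i)) x + f t (proj x) i
  div_free : ∀ t ∈ Set.Icc 0 T, ∀ x : E3, ∑ j, pd j (fun y => u t (proj y) j) x = 0
  initial : ∀ x i, u 0 x i = 0
  mean_zero : ∀ t ∈ Set.Icc 0 T, ∫ x in Set.Icc (0 : E3) 1, p t (proj x) = 0

/-- A global smooth solution. -/
structure IsGlobalSmoothSolution (ν : ℝ) (f u : ℝ → T3 → E3) (p : ℝ → T3 → ℝ) : Prop where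
  u_smooth : ∀ i, IsSmooth (fun t x => u t (proj x) i)
  p_smooth : IsSmooth (fun t x => p t (proj x))
  solves : ∀ T : ℝ, 0 < T → IsClassicalSolution ν T f u p

/-- `X` is the trajectory of `a` (lifted to `ℝ³`): `X' = u(t, X)` for `t ≥ 0` and `X 0 = a`. -/
def IsTrajectory (u : ℝ → T3 → E3) (a : T3) (X : ℝ → E3) : Prop :=
  proj (X 0) = a ∧ ∀ t : ℝ, 0 ≤ t → ∀ i,
    HasDerivWithinAt (fun s => X s i) (u t (proj (X t)) i) (Set.Ici 0) t

end Vale.Agent.P113
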