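import Vale.Agent.P113.Defs

namespace Vale.Agent.P113

/-- A force compiler whose forces split: for some time `T₀` independent of `(M, w)`, for
`0 ≤ t ≤ T₀` the force is constant in space, does not depend on the machine, and depends on the
input only through a computable rational factor `q w`; for `t ≥ T₀` it is periodic in time and
depends on the machine only. -/
structure IsSplitForceCompiler (compile : Machine × List ℕ → Nat.Partrec.Code)
    (f : Machine × List ℕ → ℝ → T3 → E3) : Prop where
  compiler : IsForceCompiler compile f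
  split : ∃ T₀ : ℝ, 0 ≤ T₀ ∧
    (∃ (g : ℝ → ℝ) (q : List ℕ → Frac), Computable q ∧
      ∀ (M : Machine) (w : List ℕ) (t : ℝ), 0 ≤ t → t ≤ T₀ → ∀ x,
        f (M, w) t x = ![g t * fracVal (q w), 0, 0]) ∧
    ∀ M : Machine,
      (∃ τ : ℝ, 0 < τ ∧ ∀ (w : List ℕ) (t : ℝ), T₀ ≤ t → ∀ x,
        f (M, w) (t + τ) x = f (M, w) t x) ∧
      ∀ (w w' : List ℕ) (t : ℝ), T₀ ≤ t → ∀ x, f (M, w) t x = f (M, w') t x

end Vale.Agent.P113
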